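import Vale.Agent.Cov.Prob

/-! # [PP] second moment method in one block -/

namespace Cov

open MeasureTheory Finset

variable {Ω : Type} [Fintype Ω] [DecidableEq Ω] {p : Ω → ℝ}

/-- Second moment method in one block. -/
theorem block_aux (hp0 : ∀ ω, 0 ≤ p ω) (hp1 : ∀ ω, p ω ≤ 1) {ι : Type} (X : Finset ι)
    (hX : X.Nonempty) (F : ι → Finset (Finset Ω))
    (h1 : ∀ x ∈ X, 1 / (X.card : ℝ) ≤ Pr p (Hits (F x)))
    (h2 : ∀ x ∈ X, ∀ y ∈ X, x ≠ y →
      Pr p (fun A => Hits (F x) A ∧ Hits (F y) A)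
        ≤ Real.exp 1 * (Pr p (Hits (F x)) * Pr p (Hits (F y)))) :
    1 / 4 ≤ Pr p (fun A => ∃ x ∈ X, Hits (F x) A) := by
  classical
  set ind : ι → Finset Ω → ℝ := fun x A => if Hits (F x) A then 1 else 0 with hind
  set N : Finset Ω → ℝ := fun A => ∑ x ∈ X, ind x A with hN
  set m : ℝ := ∑ x ∈ X, Pr p (Hits (F x)) with hm
  have hind' : ∀ x, Ex p (ind x) = Pr p (Hits (F x)) := by
    intro x
    unfold Pr
    congr 1
  have hm1 : 1 ≤ m := by
    have hc : (0:ℝ) < X.card := by exact_mod_cast hX.card_pos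
    calc (1:ℝ) = ∑ x ∈ X, 1 / (X.card : ℝ) := by
          rw [Finset.sum_const, nsmul_eq_mul]; field_simp
      _ ≤ m := Finset.sum_le_sum h1
  have hEN : Ex p N = m := by
    simp only [hN]
    rw [Ex_sum]
    exact Finset.sum_congr rfl fun x _ => hind' x
  have hP0 : ∀ x, 0 ≤ Pr p (Hits (F x)) := fun x => Pr_nonneg hp0 hp1 _
  have hEN2 : Ex p (fun A => N A * N A) ≤ m + Real.exp 1 * (m * m) := by
    have e1 : (fun A => N A * N A) = fun A => ∑ x ∈ X, ∑ y ∈ X, ind x A * ind y A := by
      funext A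
      simp only [hN]
      rw [Finset.sum_mul_sum]
    rw [e1, Ex_sum]
    have e2 : ∀ x ∈ X, Ex p (fun A => ∑ y ∈ X, ind x A * ind y A) ≤
        Pr p (Hits (F x)) + Real.exp 1 * (Pr p (Hits (F x)) * m) := by
      intro x hx
      rw [Ex_sum]
      have e3 : ∀ y ∈ X, Ex p (fun A => ind x A * ind y A) ≤
          (if x = y then Pr p (Hits (F x)) else 0) +
            Real.exp 1 * (Pr p (Hits (F x)) * Pr p (Hits (F y))) := by
        intro y hy
        have e4 : Ex p (fun A => ind x A * ind y A) =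
            Pr p (fun A => Hits (F x) A ∧ Hits (F y) A) := by
          unfold Pr
          congr 1
          funext A
          simp only [hind]
          by_cases h : Hits (F x) A <;> by_cases h' : Hits (F y) A <;> simp [h, h']
        rw [e4]
        by_cases hxy : x = y
        · subst hxy
          rw [if_pos rfl]
          have h5 : Pr p (fun A => Hits (F x) A ∧ Hits (F x) A) ≤ Pr p (Hits (F x)) :=
            Pr_mono hp0 hp1 fun A h => h.1
          have h6 : 0 ≤ Real.exp 1 * (Pr p (Hits (F x)) * Pr p (Hits (F x))) :=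
            mul_nonneg (Real.exp_pos 1).le (mul_nonneg (hP0 x) (hP0 x))
          linarith
        · rw [if_neg hxy, zero_add]
          exact h2 x hx y hy hxy
      calc ∑ y ∈ X, Ex p (fun A => ind x A * ind y A)
          ≤ ∑ y ∈ X, ((if x = y then Pr p (Hits (F x)) else 0) +
            Real.exp 1 * (Pr p (Hits (F x)) * Pr p (Hits (F y)))) := Finset.sum_le_sum e3
        _ = Pr p (Hits (F x)) + Real.exp 1 * (Pr p (Hits (F x)) * m) := by
          rw [Finset.sum_add_distrib, Finset.sum_ite_eq, if_pos hx, ← Finset.mul_sum,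
            ← Finset.mul_sum]
    calc ∑ x ∈ X, Ex p (fun A => ∑ y ∈ X, ind x A * ind y A)
        ≤ ∑ x ∈ X, (Pr p (Hits (F x)) + Real.exp 1 * (Pr p (Hits (F x)) * m)) :=
          Finset.sum_le_sum e2
      _ = m + Real.exp 1 * (m * m) := by
          rw [Finset.sum_add_distrib, ← Finset.mul_sum, ← Finset.sum_mul]
  -- the quadratic minorant
  set lam : ℝ := 1 / ((1 + Real.exp 1) * m) with hlam
  have hmin : Ex p (fun A => 2 * lam * N A + (-(lam ^ 2)) * (N A * N A)) ≤
      Pr p (fun A => ∃ x ∈ X, Hits (F x) A) := by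
    unfold Pr
    refine Ex_mono hp0 hp1 fun A => ?_
    by_cases h : ∃ x ∈ X, Hits (F x) A
    · rw [if_pos h]
      nlinarith [sq_nonneg (1 - lam * N A)]
    · rw [if_neg h]
      have h0 : N A = 0 := by
        simp only [hN]
        refine Finset.sum_eq_zero fun x hx => ?_
        simp only [hind]
        rw [if_neg]
        exact fun h' => h ⟨x, hx, h'⟩
      rw [h0]
      simp
  have hexp : Ex p (fun A => 2 * lam * N A + (-(lam ^ 2)) * (N A * N A)) =
      2 * lam * m + (-(lam ^ 2)) * Ex p (fun A => N A * N A) := by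
    rw [Ex_add, Ex_mul_left, Ex_mul_left, hEN]
  rw [hexp] at hmin
  have he : Real.exp 1 < 3 := Real.exp_one_lt_three
  have he0 : 0 < Real.exp 1 := Real.exp_pos 1
  have hmpos : 0 < m := by linarith
  have h7 : lam ^ 2 * Ex p (fun A => N A * N A) ≤ lam ^ 2 * ((1 + Real.exp 1) * (m * m)) := by
    refine mul_le_mul_of_nonneg_left ?_ (sq_nonneg _)
    nlinarith [hEN2]
  have h8 : lam * ((1 + Real.exp 1) * m) = 1 := by
    rw [hlam]; field_simp
  have h9 : lam ^ 2 * ((1 + Real.exp 1) * (m * m)) = lam * m := by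
    have : lam ^ 2 * ((1 + Real.exp 1) * (m * m)) = (lam * ((1 + Real.exp 1) * m)) * (lam * m) := by
      ring
    rw [this, h8, one_mul]
  have h10 : 1 / 4 ≤ lam * m := by
    have : lam * m * (1 + Real.exp 1) = 1 := by linarith [h8]
    have h11 : 0 < 1 + Real.exp 1 := by linarith
    rw [div_le_iff₀ (by norm_num)]
    nlinarith [this]
  linarith

end Cov
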