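import Vale.Agent.Cov.Defs

/-!
Random subsets of a finite set: splitting of the expectation over a disjoint union,
independence, Harris inequality.
-/

open Finset

namespace Cov.H18

/-- weight of the subset `B` of `S` under the product Bernoulli measure on `S`. -/
noncomputable def wtS {Ω : Type*} [DecidableEq Ω] (p : Ω → ℝ) (S B : Finset Ω) : ℝ :=
  (∏ w ∈ B, p w) * ∏ w ∈ S \ B, (1 - p w)

/-- expectation over a random subset of `S`. -/
noncomputable def ExS {Ω : Type*} [DecidableEq Ω] (p : Ω → ℝ) (S : Finset Ω) (f : Finset Ω → ℝ) : ℝ :=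
  ∑ B ∈ S.powerset, wtS p S B * f B

section basic

variable {Ω : Type*} [DecidableEq Ω] {p : Ω → ℝ}

lemma wtS_nonneg (h0 : ∀ w, 0 ≤ p w) (h1 : ∀ w, p w ≤ 1) (S B : Finset Ω) :
    0 ≤ wtS p S B := by
  unfold wtS
  refine mul_nonneg (prod_nonneg fun w _ => h0 w) (prod_nonneg fun w _ => ?_)
  linarith [h1 w]

lemma sum_wtS (S : Finset Ω) : ∑ B ∈ S.powerset, wtS p S B = 1 := by
  have h := Finset.prod_add (fun w => p w) (fun w => 1 - p w) S
  simp only [add_sub_cancel, prod_const_one] at h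
  rw [h]
  refine sum_congr rfl fun B _ => ?_
  unfold wtS
  congr!

lemma ExS_const (S : Finset Ω) (c : ℝ) : ExS p S (fun _ => c) = c := by
  unfold ExS
  rw [← sum_mul, sum_wtS, one_mul]

lemma ExS_add (S : Finset Ω) (f g : Finset Ω → ℝ) :
    ExS p S (fun A => f A + g A) = ExS p S f + ExS p S g := by
  unfold ExS
  rw [← sum_add_distrib]
  exact sum_congr rfl fun _ _ => by ring

lemma ExS_sub (S : Finset Ω) (f g : Finset Ω → ℝ) :
    ExS p S (fun A => f A - g A) = ExS p S f - ExS p S g := by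
  unfold ExS
  rw [← sum_sub_distrib]
  exact sum_congr rfl fun _ _ => by ring

lemma ExS_mul_left (S : Finset Ω) (c : ℝ) (f : Finset Ω → ℝ) :
    ExS p S (fun A => c * f A) = c * ExS p S f := by
  unfold ExS
  rw [mul_sum]
  exact sum_congr rfl fun _ _ => by ring

lemma ExS_mul_right (S : Finset Ω) (c : ℝ) (f : Finset Ω → ℝ) :
    ExS p S (fun A => f A * c) = ExS p S f * c := by
  unfold ExS
  rw [sum_mul]
  exact sum_congr rfl fun _ _ => by ring

lemma ExS_sum {ι : Type*} (S : Finset Ω) (s : Finset ι) (f : ι → Finset Ω → ℝ) :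
    ExS p S (fun A => ∑ i ∈ s, f i A) = ∑ i ∈ s, ExS p S (f i) := by
  unfold ExS
  rw [sum_comm]
  exact sum_congr rfl fun _ _ => by rw [mul_sum]

lemma ExS_mono (h0 : ∀ w, 0 ≤ p w) (h1 : ∀ w, p w ≤ 1) (S : Finset Ω)
    {f g : Finset Ω → ℝ} (h : ∀ A, A ⊆ S → f A ≤ g A) : ExS p S f ≤ ExS p S g := by
  unfold ExS
  refine sum_le_sum fun A hA => ?_
  exact mul_le_mul_of_nonneg_left (h A (mem_powerset.mp hA)) (wtS_nonneg h0 h1 S A)

lemma ExS_nonneg (h0 : ∀ w, 0 ≤ p w) (h1 : ∀ w, p w ≤ 1) (S : Finset Ω)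
    {f : Finset Ω → ℝ} (h : ∀ A, A ⊆ S → 0 ≤ f A) : 0 ≤ ExS p S f := by
  unfold ExS
  refine sum_nonneg fun A hA => ?_
  exact mul_nonneg (wtS_nonneg h0 h1 S A) (h A (mem_powerset.mp hA))

lemma ExS_congr (S : Finset Ω) {f g : Finset Ω → ℝ} (h : ∀ A, A ⊆ S → f A = g A) :
    ExS p S f = ExS p S g := by
  unfold ExS
  refine sum_congr rfl fun A hA => ?_
  rw [h A (mem_powerset.mp hA)]

/-- some outcome attains at most the mean. -/
lemma exists_le_ExS (h0 : ∀ w, 0 ≤ p w) (h1 : ∀ w, p w ≤ 1) (S : Finset Ω)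
    (f : Finset Ω → ℝ) : ∃ A, A ⊆ S ∧ f A ≤ ExS p S f := by
  by_contra hcon
  push Not at hcon
  have h2 : ∀ A ∈ S.powerset, ExS p S f * wtS p S A ≤ wtS p S A * f A := by
    intro A hA
    have := hcon A (mem_powerset.mp hA)
    nlinarith [wtS_nonneg h0 h1 S A]
  have h3 : ∃ A ∈ S.powerset, 0 < wtS p S A := by
    by_contra h4
    push Not at h4
    have h5 : ∑ B ∈ S.powerset, wtS p S B ≤ 0 := sum_nonpos h4
    rw [sum_wtS] at h5
    linarith
  obtain ⟨A, hA, hA0⟩ := h3
  have h6 : ∑ B ∈ S.powerset, ExS p S f * wtS p S B < ∑ B ∈ S.powerset, wtS p S B * f B := by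
    refine sum_lt_sum h2 ⟨A, hA, ?_⟩
    have := hcon A (mem_powerset.mp hA)
    nlinarith
  rw [← mul_sum, sum_wtS, mul_one] at h6
  exact lt_irrefl _ h6

/-- some outcome attains at least the mean. -/
lemma exists_ge_ExS (h0 : ∀ w, 0 ≤ p w) (h1 : ∀ w, p w ≤ 1) (S : Finset Ω)
    (f : Finset Ω → ℝ) : ∃ A, A ⊆ S ∧ ExS p S f ≤ f A := by
  obtain ⟨A, hA, h⟩ := exists_le_ExS h0 h1 S (fun A => - f A)
  refine ⟨A, hA, ?_⟩
  have h2 : ExS p S (fun A => - f A) = - ExS p S f := by
    have := ExS_mul_left (p := p) S (-1) f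
    simpa using this
  rw [h2] at h
  linarith

lemma wtS_union {S T B C : Finset Ω} (hST : Disjoint S T) (hB : B ⊆ S) (hC : C ⊆ T) :
    wtS p (S ∪ T) (B ∪ C) = wtS p S B * wtS p T C := by
  unfold wtS
  have h1 : Disjoint B C := disjoint_of_subset_left hB (disjoint_of_subset_right hC hST)
  have h2 : (S ∪ T) \ (B ∪ C) = (S \ B) ∪ (T \ C) := by
    ext w
    simp only [mem_sdiff, mem_union, not_or]
    constructor
    · rintro ⟨h | h, h3, h4⟩
      · exact Or.inl ⟨h, h3⟩
      · exact Or.inr ⟨h, h4⟩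
    · rintro (⟨h, h3⟩ | ⟨h, h3⟩)
      · exact ⟨Or.inl h, h3, fun h4 => (Finset.disjoint_left.mp hST h) (hC h4)⟩
      · exact ⟨Or.inr h, fun h4 => (Finset.disjoint_left.mp hST (hB h4)) h, h3⟩
  have h3 : Disjoint (S \ B) (T \ C) :=
    disjoint_of_subset_left sdiff_subset (disjoint_of_subset_right sdiff_subset hST)
  rw [h2, prod_union h1, prod_union h3]
  ring

/-- splitting of the expectation over a disjoint union. -/
lemma ExS_union {S T : Finset Ω} (hST : Disjoint S T) (f : Finset Ω → ℝ) :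
    ExS p (S ∪ T) f = ExS p S (fun B => ExS p T (fun C => f (B ∪ C))) := by
  unfold ExS
  simp_rw [mul_sum]
  rw [← sum_product' (f := fun B C => wtS p S B * (wtS p T C * f (B ∪ C)))]
  symm
  refine sum_nbij' (fun x => x.1 ∪ x.2) (fun A => (A ∩ S, A ∩ T)) ?_ ?_ ?_ ?_ ?_
  · rintro ⟨B, C⟩ h
    simp only [mem_product, mem_powerset] at h ⊢
    exact union_subset_union h.1 h.2
  · intro A _
    simp only [mem_product, mem_powerset]
    exact ⟨inter_subset_right, inter_subset_right⟩
  · rintro ⟨B, C⟩ h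
    simp only [mem_product, mem_powerset] at h
    have h1 : Disjoint B T := disjoint_of_subset_left h.1 hST
    have h2 : Disjoint C S := disjoint_of_subset_left h.2 hST.symm
    simp only [union_inter_distrib_right, disjoint_iff_inter_eq_empty.mp h1,
      disjoint_iff_inter_eq_empty.mp h2, union_empty, empty_union,
      inter_eq_left.mpr h.1, inter_eq_left.mpr h.2]
  · intro A hA
    rw [mem_powerset] at hA
    simp only
    rw [← inter_union_distrib_left, inter_eq_left.mpr hA]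
  · rintro ⟨B, C⟩ h
    simp only [mem_product, mem_powerset] at h
    simp only
    rw [wtS_union hST h.1 h.2]
    ring

/-- independence of functions of disjoint parts. -/
lemma ExS_mul_of_disjoint {S T : Finset Ω} (hST : Disjoint S T) (f g : Finset Ω → ℝ)
    (hf : ∀ B C, B ⊆ S → C ⊆ T → f (B ∪ C) = f B)
    (hg : ∀ B C, B ⊆ S → C ⊆ T → g (B ∪ C) = g C) :
    ExS p (S ∪ T) (fun A => f A * g A) = ExS p (S ∪ T) f * ExS p (S ∪ T) g := by
  rw [ExS_union hST, ExS_union hST, ExS_union hST]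
  have h1 : ExS p S (fun B => ExS p T (fun C => f (B ∪ C) * g (B ∪ C)))
      = ExS p S (fun B => f B * ExS p T g) := by
    refine ExS_congr S fun B hB => ?_
    rw [← ExS_mul_left]
    exact ExS_congr T fun C hC => by rw [hf B C hB hC, hg B C hB hC]
  have h2 : ExS p S (fun B => ExS p T (fun C => f (B ∪ C))) = ExS p S f := by
    refine ExS_congr S fun B hB => ?_
    rw [← ExS_const (p := p) T (f B)]
    exact ExS_congr T fun C hC => hf B C hB hC
  have h3 : ExS p S (fun B => ExS p T (fun C => g (B ∪ C))) = ExS p T g := by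
    rw [← ExS_const (p := p) S (ExS p T g)]
    refine ExS_congr S fun B hB => ?_
    exact ExS_congr T fun C hC => hg B C hB hC
  rw [h1, h2, h3, ExS_mul_right]

end basic

section harris

variable {Ω : Type*} [DecidableEq Ω] {p : Ω → ℝ}

/-- Harris inequality on the subsets of `S`. -/
lemma harris (h0 : ∀ w, 0 ≤ p w) (h1 : ∀ w, p w ≤ 1) (S : Finset Ω) {f g : Finset Ω → ℝ}
    (hf : Monotone f) (hg : Monotone g) :
    ExS p S f * ExS p S g ≤ ExS p S (fun A => f A * g A) := by
  induction S using Finset.induction_on generalizing f g with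
  | empty =>
    unfold ExS wtS
    simp
  | insert a S ha ih =>
    have hd : Disjoint ({a} : Finset Ω) S := by simpa using ha
    have hins : insert a S = {a} ∪ S := insert_eq a S
    rw [hins, ExS_union hd, ExS_union hd, ExS_union hd]
    have hpw : ({a} : Finset Ω).powerset = {∅, {a}} := by
      ext B; simp [subset_singleton_iff]
    have hone : ∀ F : Finset Ω → ℝ, ExS p {a} F = (1 - p a) * F ∅ + p a * F {a} := by
      intro F
      unfold ExS wtS
      rw [hpw, sum_pair (by simp)]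
      simp
    rw [hone, hone, hone]
    set F0 := ExS p S (fun C => f (∅ ∪ C)) with hF0
    set F1 := ExS p S (fun C => f ({a} ∪ C)) with hF1
    set G0 := ExS p S (fun C => g (∅ ∪ C)) with hG0
    set G1 := ExS p S (fun C => g ({a} ∪ C)) with hG1
    have m : ∀ (X : Finset Ω) (u : Finset Ω → ℝ), Monotone u → Monotone (fun C => u (X ∪ C)) := by
      intro X u hu C D hCD
      exact hu (union_subset_union (subset_refl _) hCD)
    have e0 := ih (f := fun C => f (∅ ∪ C)) (g := fun C => g (∅ ∪ C)) (m ∅ f hf) (m ∅ g hg)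
    have e1 := ih (f := fun C => f ({a} ∪ C)) (g := fun C => g ({a} ∪ C))
      (m {a} f hf) (m {a} g hg)
    have l1 : F0 ≤ F1 := ExS_mono h0 h1 S fun C _ =>
      hf (union_subset_union (empty_subset _) (subset_refl _))
    have l2 : G0 ≤ G1 := ExS_mono h0 h1 S fun C _ =>
      hg (union_subset_union (empty_subset _) (subset_refl _))
    have q0 := h0 a
    have q1 := h1 a
    have key : ((1 - p a) * F0 + p a * F1) * ((1 - p a) * G0 + p a * G1)
        ≤ (1 - p a) * (F0 * G0) + p a * (F1 * G1) := by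
      have h3 : 0 ≤ p a * (1 - p a) * ((F1 - F0) * (G1 - G0)) := by
        refine mul_nonneg (mul_nonneg q0 (by linarith)) (mul_nonneg ?_ ?_) <;> linarith
      nlinarith
    refine key.trans ?_
    refine add_le_add (mul_le_mul_of_nonneg_left e0 (by linarith))
      (mul_le_mul_of_nonneg_left e1 q0)

lemma harris_prod (h0 : ∀ w, 0 ≤ p w) (h1 : ∀ w, p w ≤ 1) (S : Finset Ω) {ι : Type*}
    (s : Finset ι) {f : ι → Finset Ω → ℝ} (hf0 : ∀ i A, 0 ≤ f i A) (hf : ∀ i, Monotone (f i)) :
    ∏ i ∈ s, ExS p S (f i) ≤ ExS p S (fun A => ∏ i ∈ s, f i A) := by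
  classical
  induction s using Finset.induction_on with
  | empty => simp [ExS_const]
  | insert a s ha ih =>
    rw [prod_insert ha]
    have hm : Monotone (fun A => ∏ i ∈ s, f i A) := by
      intro A B hAB
      exact prod_le_prod (fun i _ => hf0 i A) fun i _ => hf i hAB
    have h2 := harris h0 h1 S (f := f a) (g := fun A => ∏ i ∈ s, f i A) (hf a) hm
    calc ExS p S (f a) * ∏ i ∈ s, ExS p S (f i)
        ≤ ExS p S (f a) * ExS p S (fun A => ∏ i ∈ s, f i A) :=
          mul_le_mul_of_nonneg_left ih (ExS_nonneg h0 h1 S fun A _ => hf0 a A)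
      _ ≤ _ := h2
      _ = _ := by
        refine ExS_congr S fun A _ => ?_
        rw [prod_insert ha]

end harris


section full

variable {Ω : Type} [Fintype Ω] [DecidableEq Ω] {p : Ω → ℝ}

theorem wt_eq_wtS (A : Finset Ω) : wt p A = wtS p univ A := by
  unfold wt wtS
  rw [compl_eq_univ_sdiff]

theorem Ex_eq_ExS (f : Finset Ω → ℝ) : Ex p f = ExS p univ f := by
  unfold Ex ExS
  rw [powerset_univ]
  exact sum_congr rfl fun A _ => by rw [wt_eq_wtS]

/-- Harris inequality. -/
theorem harris' (hp0 : ∀ ω, 0 ≤ p ω) (hp1 : ∀ ω, p ω ≤ 1) {f g : Finset Ω → ℝ}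
    (hf : Monotone f) (hg : Monotone g) :
    Ex p f * Ex p g ≤ Ex p (fun A => f A * g A) := by
  rw [Ex_eq_ExS, Ex_eq_ExS, Ex_eq_ExS]
  exact harris hp0 hp1 univ hf hg

/-- Events depending on disjoint sets of coordinates are independent. -/
theorem Pr_indep' {D D' : Finset Ω} (hD : Disjoint D D') {F G : Finset Ω → Prop}
    (hF : ∀ A, F A ↔ F (A ∩ D)) (hG : ∀ A, G A ↔ G (A ∩ D')) :
    Pr p (fun A => F A ∧ G A) = Pr p F * Pr p G := by
  classical
  unfold Pr
  rw [Ex_eq_ExS, Ex_eq_ExS, Ex_eq_ExS]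
  have hu : (univ : Finset Ω) = D ∪ Dᶜ := (union_compl D).symm
  have h := ExS_mul_of_disjoint (p := p) (S := D) (T := Dᶜ) disjoint_compl_right
    (fun A => if F A then 1 else 0) (fun A => if G A then 1 else 0) ?_ ?_
  · rw [hu, ← h]
    refine ExS_congr _ fun A _ => ?_
    by_cases h1 : F A <;> by_cases h2 : G A <;> simp [h1, h2]
  · intro B C hB hC
    have h1 : (B ∪ C) ∩ D = B ∩ D := by
      rw [union_inter_distrib_right]
      have : C ∩ D = ∅ := by
        rw [← disjoint_iff_inter_eq_empty]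
        exact disjoint_of_subset_left hC disjoint_compl_left
      rw [this, union_empty]
    have h2 : F (B ∪ C) ↔ F B := by rw [hF (B ∪ C), h1, ← hF B]
    simp only [h2]
  · intro B C hB hC
    have h1 : (B ∪ C) ∩ D' = C ∩ D' := by
      rw [union_inter_distrib_right]
      have : B ∩ D' = ∅ := by
        rw [← disjoint_iff_inter_eq_empty]
        exact disjoint_of_subset_left hB hD
      rw [this, empty_union]
    have h2 : G (B ∪ C) ↔ G C := by rw [hG (B ∪ C), h1, ← hG C]
    simp only [h2]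

omit [Fintype Ω] in
theorem Hits_mono {F : Finset (Finset Ω)} {A B : Finset Ω} (h : A ⊆ B) (hA : Hits F A) :
    Hits F B := by
  intro S hS
  obtain ⟨w, hw⟩ := hA S hS
  rw [mem_inter] at hw
  exact ⟨w, mem_inter.mpr ⟨h hw.1, hw.2⟩⟩

omit [Fintype Ω] in
theorem Hits_union {F G : Finset (Finset Ω)} {A : Finset Ω} :
    Hits (F ∪ G) A ↔ Hits F A ∧ Hits G A := by
  constructor
  · intro h
    exact ⟨fun S hS => h S (mem_union_left _ hS), fun S hS => h S (mem_union_right _ hS)⟩
  · rintro ⟨h1, h2⟩ S hS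
    rcases mem_union.mp hS with h | h
    · exact h1 S h
    · exact h2 S h

omit [Fintype Ω] in
open Classical in
theorem Hits_ind_mono (F : Finset (Finset Ω)) :
    Monotone (fun A : Finset Ω => if Hits F A then (1 : ℝ) else 0) := by
  intro A B h
  by_cases h1 : Hits F A
  · have h2 : Hits F B := Hits_mono h h1
    simp [h1, h2]
  · simp only [h1, if_false]
    split_ifs <;> norm_num

open Classical in
theorem Pr_hits_mul' (hp0 : ∀ ω, 0 ≤ p ω) (hp1 : ∀ ω, p ω ≤ 1) (F G : Finset (Finset Ω)) :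
    Pr p (Hits F) * Pr p (Hits G) ≤ Pr p (Hits (F ∪ G)) := by
  unfold Pr
  refine (harris' hp0 hp1 (Hits_ind_mono F) (Hits_ind_mono G)).trans (le_of_eq ?_)
  congr 1
  funext A
  by_cases h1 : Hits F A <;> by_cases h2 : Hits G A <;> simp [h1, h2, Hits_union]

omit [Fintype Ω] in
theorem Hits_empty (A : Finset Ω) : Hits (∅ : Finset (Finset Ω)) A := by
  intro S hS
  simp at hS

omit [Fintype Ω] in
theorem Hits_singleton {S A : Finset Ω} : Hits {S} A ↔ Hit S A := by
  constructor
  · intro h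
    exact h S (mem_singleton_self S)
  · intro h T hT
    rw [mem_singleton] at hT
    rw [hT]
    exact h

theorem Pr_nonneg' (hp0 : ∀ ω, 0 ≤ p ω) (hp1 : ∀ ω, p ω ≤ 1) (F : Finset Ω → Prop) :
    0 ≤ Pr p F := by
  classical
  unfold Pr
  rw [Ex_eq_ExS]
  exact ExS_nonneg hp0 hp1 _ fun A _ => by split_ifs <;> norm_num

theorem Pr_mono' (hp0 : ∀ ω, 0 ≤ p ω) (hp1 : ∀ ω, p ω ≤ 1) {F G : Finset Ω → Prop}
    (h : ∀ A, F A → G A) : Pr p F ≤ Pr p G := by
  classical
  unfold Pr
  rw [Ex_eq_ExS, Ex_eq_ExS]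
  refine ExS_mono hp0 hp1 _ fun A _ => ?_
  by_cases h1 : F A
  · simp [h1, h A h1]
  · simp only [h1, if_false]
    split_ifs <;> norm_num

theorem Pr_le_one' (hp0 : ∀ ω, 0 ≤ p ω) (hp1 : ∀ ω, p ω ≤ 1) (F : Finset Ω → Prop) :
    Pr p F ≤ 1 := by
  classical
  unfold Pr
  rw [Ex_eq_ExS]
  have h := ExS_const (p := p) (univ : Finset Ω) 1
  refine le_of_le_of_eq (ExS_mono hp0 hp1 _ fun A _ => ?_) h
  split_ifs <;> norm_num

theorem Pr_hits_ge' (hp0 : ∀ ω, 0 ≤ p ω) (hp1 : ∀ ω, p ω ≤ 1) (F : Finset (Finset Ω)) :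
    ∏ S ∈ F, Pr p (Hit S) ≤ Pr p (Hits F) := by
  classical
  induction F using Finset.induction_on with
  | empty =>
    have : Pr p (Hits (∅ : Finset (Finset Ω))) = 1 := by
      unfold Pr
      rw [Ex_eq_ExS]
      have h := ExS_const (p := p) (univ : Finset Ω) 1
      refine Eq.trans (ExS_congr _ fun A _ => ?_) h
      simp [Hits_empty]
    rw [this]
    simp
  | insert a s ha ih =>
    rw [prod_insert ha]
    have h1 := Pr_hits_mul' hp0 hp1 {a} s
    rw [← insert_eq] at h1
    have h2 : Pr p (Hits {a}) = Pr p (Hit a) := by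
      congr 1
      funext A
      exact propext Hits_singleton
    rw [h2] at h1
    exact (mul_le_mul_of_nonneg_left ih (Pr_nonneg' hp0 hp1 _)).trans h1

end full

end Cov.H18
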