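import Vale.Agent.Cov.Prob
import Vale.Agent.Cov.Overlap

set_option linter.unusedSectionVars false

/-! # [O1] light sets keep half of their mass -/

namespace Cov

open MeasureTheory Finset
open scoped RealInnerProductSpace

variable {Ω : Type} [Fintype Ω] [DecidableEq Ω] {p : Ω → ℝ}

theorem nu_nonneg24 (hp0 : ∀ ω, 0 ≤ p ω) (S : Finset Ω) : 0 ≤ nu p S :=
  Finset.sum_nonneg fun ω _ => hp0 ω

theorem nu_mono24 (hp0 : ∀ ω, 0 ≤ p ω) {S T : Finset Ω} (h : S ⊆ T) : nu p S ≤ nu p T :=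
  Finset.sum_le_sum_of_subset_of_nonneg h fun ω _ _ => hp0 ω

theorem nu_biUnion_le24 {ι : Type} [DecidableEq ι] (hp0 : ∀ ω, 0 ≤ p ω) (s : Finset ι)
    (f : ι → Finset Ω) : nu p (s.biUnion f) ≤ ∑ i ∈ s, nu p (f i) := by
  classical
  induction s using Finset.induction_on with
  | empty => simp [nu]
  | insert a s ha ih =>
    rw [Finset.biUnion_insert, Finset.sum_insert ha]
    have h1 : nu p (f a ∪ s.biUnion f) + nu p (f a ∩ s.biUnion f)
        = nu p (f a) + nu p (s.biUnion f) := Finset.sum_union_inter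
    have h2 := nu_nonneg24 hp0 (f a ∩ s.biUnion f)
    linarith

theorem nu_sdiff_ge24 {ι : Type} [DecidableEq ι] (hp0 : ∀ ω, 0 ≤ p ω) (S : Finset Ω)
    (s : Finset ι) (f : ι → Finset Ω) :
    nu p S - ∑ i ∈ s, nu p (S ∩ f i) ≤ nu p (S \ s.biUnion f) := by
  classical
  have h1 : nu p (S ∩ s.biUnion f) + nu p (S \ s.biUnion f) = nu p S := by
    unfold nu
    rw [← Finset.sum_union (Finset.disjoint_sdiff_inter S (s.biUnion f)).symm,
      Finset.union_comm, Finset.sdiff_union_inter]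
  have h2 : S ∩ s.biUnion f = s.biUnion (fun i => S ∩ f i) := by
    rw [Finset.inter_biUnion]
  have h3 := nu_biUnion_le24 hp0 s (fun i => S ∩ f i)
  rw [← h2] at h3
  linarith

theorem light {κ ρ c0 C3 : ℝ} (hκ : 1 ≤ κ) (hc0 : 0 < c0) :
    ∃ n0 : ℕ, ∀ n ≥ n0, ∀ (M : Mdl n κ ρ c0 C3) (x : E n) (L : Finset (E n)) (t : E n), t ∈ L →
      (∀ t' ∈ L, ‖x - t'‖ ≤ 1 ∧ sg (x - t') ≤ 4 * Real.log n) →
      (L.card : ℝ) ≤ (n : ℝ) ^ 2 →
      c0 / 2 * Real.exp (-(κ * sg (x - t))) ≤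
        nu M.p (M.C (x - t) \ (L.filter (fun t' => 40 * Real.log n / n < ‖t - t'‖ ^ 2)).biUnion
          (fun t' => M.C (x - t'))) := by
  classical
  obtain ⟨n1, hn1⟩ := exists_nat_gt (2 * Real.exp 1 / c0)
  refine ⟨max n1 1, ?_⟩
  intro n hn M x L t ht hL hcard
  have hn1' : n1 ≤ n := (le_max_left _ _).trans hn
  have hn0 : 1 ≤ n := (le_max_right _ _).trans hn
  have hnR : (1 : ℝ) ≤ n := by exact_mod_cast hn0
  have hnpos : (0 : ℝ) < n := by linarith
  have hlog : 0 ≤ Real.log n := Real.log_nonneg hnR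
  have hbig : 2 * Real.exp 1 / c0 ≤ n := by
    have : (n1 : ℝ) ≤ n := by exact_mod_cast hn1'
    linarith
  obtain ⟨hxt, hst⟩ := hL t ht
  have hlow := M.lower (x - t) hxt hst
  change c0 * Real.exp (-(κ * sg (x - t))) ≤ nu M.p (M.C (x - t)) at hlow
  refine le_trans ?_ (nu_sdiff_ge24 M.p_nonneg (M.C (x - t))
    (L.filter (fun t' => 40 * Real.log n / n < ‖t - t'‖ ^ 2)) (fun t' => M.C (x - t')))
  have hterm : ∀ t' ∈ L.filter (fun t' => 40 * Real.log n / n < ‖t - t'‖ ^ 2),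
      nu M.p (M.C (x - t) ∩ M.C (x - t')) ≤
        Real.exp (1 - 5 * κ * Real.log n) * Real.exp (-(κ * sg (x - t) / 2)) := by
    intro t' ht'
    rw [Finset.mem_filter] at ht'
    obtain ⟨hxt', hst'⟩ := hL t' ht'.1
    refine (nu_overlap_aux M (x - t) (x - t') hxt hxt').trans ?_
    rw [← Real.exp_add]
    apply Real.exp_le_exp.2
    have h1 : ‖(x - t) - (x - t')‖ = ‖t - t'‖ := by
      rw [sub_sub_sub_cancel_left, norm_sub_rev]
    rw [h1]
    have h2 : 0 ≤ sg (x - t') := by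
      unfold sg
      have h3 : ‖x - t'‖ ^ 2 ≤ 1 := by
        have := norm_nonneg (x - t')
        nlinarith
      have : 0 ≤ (n : ℝ) * (1 - ‖x - t'‖ ^ 2) := mul_nonneg hnpos.le (by linarith)
      linarith
    have h4 : 40 * Real.log n ≤ n * ‖t - t'‖ ^ 2 := by
      have := ht'.2
      rw [div_lt_iff₀ hnpos] at this
      linarith
    have h5 : κ * (40 * Real.log n) ≤ κ * (n * ‖t - t'‖ ^ 2) :=
      mul_le_mul_of_nonneg_left h4 (by linarith)
    have h6 : 0 ≤ κ * sg (x - t') := mul_nonneg (by linarith) h2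
    nlinarith
  have hsum : ∑ t' ∈ L.filter (fun t' => 40 * Real.log n / n < ‖t - t'‖ ^ 2),
      nu M.p (M.C (x - t) ∩ M.C (x - t')) ≤
      (n : ℝ) ^ 2 * (Real.exp (1 - 5 * κ * Real.log n) * Real.exp (-(κ * sg (x - t) / 2))) := by
    refine (Finset.sum_le_sum hterm).trans ?_
    rw [Finset.sum_const, nsmul_eq_mul]
    refine mul_le_mul_of_nonneg_right ?_ (by positivity)
    have h1 : ((L.filter (fun t' => 40 * Real.log n / n < ‖t - t'‖ ^ 2)).card : ℝ) ≤ L.card := by
      exact_mod_cast Finset.card_filter_le _ _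
    exact h1.trans hcard
  -- compare with half of the lower bound
  have hkey : (n : ℝ) ^ 2 * (Real.exp (1 - 5 * κ * Real.log n) *
      Real.exp (-(κ * sg (x - t) / 2))) ≤ c0 / 2 * Real.exp (-(κ * sg (x - t))) := by
    have h1 : (n : ℝ) ^ 2 = Real.exp (2 * Real.log n) := by
      rw [two_mul, Real.exp_add, Real.exp_log hnpos, sq]
    have h2 : Real.exp (-(κ * sg (x - t))) =
        Real.exp (-(κ * sg (x - t) / 2)) * Real.exp (-(κ * sg (x - t) / 2)) := by
      rw [← Real.exp_add]; congr 1; ring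
    have h3 : Real.exp (-(2 * κ * Real.log n)) ≤ Real.exp (-(κ * sg (x - t) / 2)) := by
      apply Real.exp_le_exp.2
      have : κ * sg (x - t) ≤ κ * (4 * Real.log n) := mul_le_mul_of_nonneg_left hst (by linarith)
      linarith
    have h4 : (n : ℝ) ^ 2 * Real.exp (1 - 5 * κ * Real.log n) ≤
        c0 / 2 * Real.exp (-(2 * κ * Real.log n)) := by
      rw [h1, ← Real.exp_add]
      have h5 : Real.exp (2 * Real.log n + (1 - 5 * κ * Real.log n)) ≤
          Real.exp 1 * Real.exp (-Real.log n) * Real.exp (-(2 * κ * Real.log n)) := by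
        rw [← Real.exp_add, ← Real.exp_add]
        apply Real.exp_le_exp.2
        have : 3 * Real.log n ≤ 3 * κ * Real.log n :=
          mul_le_mul_of_nonneg_right (by linarith) hlog
        linarith
      refine h5.trans (mul_le_mul_of_nonneg_right ?_ (Real.exp_pos _).le)
      rw [Real.exp_neg, Real.exp_log hnpos, ← div_eq_mul_inv, div_le_iff₀ hnpos]
      rw [div_le_iff₀ hc0] at hbig
      linarith
    calc (n : ℝ) ^ 2 * (Real.exp (1 - 5 * κ * Real.log n) * Real.exp (-(κ * sg (x - t) / 2)))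
        = ((n : ℝ) ^ 2 * Real.exp (1 - 5 * κ * Real.log n)) *
          Real.exp (-(κ * sg (x - t) / 2)) := by ring
      _ ≤ (c0 / 2 * Real.exp (-(2 * κ * Real.log n))) * Real.exp (-(κ * sg (x - t) / 2)) :=
          mul_le_mul_of_nonneg_right h4 (Real.exp_pos _).le
      _ ≤ (c0 / 2 * Real.exp (-(κ * sg (x - t) / 2))) * Real.exp (-(κ * sg (x - t) / 2)) := by
          refine mul_le_mul_of_nonneg_right (mul_le_mul_of_nonneg_left h3 (by linarith)) ?_
          exact (Real.exp_pos _).le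
      _ = c0 / 2 * Real.exp (-(κ * sg (x - t))) := by rw [h2]; ring
  have h9 := hlow
  linarith

end Cov
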